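import Vale.Agent.P088.R2.H820.T.Ft2
import Vale.Agent.P088.R2.H312.T.ScP
import Vale.Agent.P088.R2.H354.T.WinP
import Vale.Agent.P088.R2.H354.T.Et
import Vale.Agent.P088.R2.H710.EP.GQ

/-!
# The flat zones on the package: the profile
-/

open MeasureTheory Set Filter
open scoped ContDiff Topology

set_option linter.unusedSectionVars false
set_option linter.dupNamespace false

noncomputable section

namespace Vale.Agent.P088.R2.H820.Fl

open Vale.Agent.P088.LR Vale.Agent.P088.HY Vale.Agent.P088.R2.H31.EP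
open Vale.Agent.P088.R2.H354.T (bq)
open Vale.Agent.P088.R2.H644 (IsProf)
open Vale.Agent.P088.R2.H820.W (FS)

/-- The profile of the package is a profile. -/
theorem isProf {ε : ℝ} (hr : H509.Rad.Ok ε rp) : ∃ R₁, IsProf 2 (4 / 5) ε rp R₁
    (H644.Ph 2 (4 / 5) ε rp (1 / 10)) (H644.Ph1 2 (4 / 5) ε rp (1 / 10))
    (H644.Ph2 2 (4 / 5) ε rp (1 / 10)) (H644.Lf 2 (4 / 5) ε rp (1 / 10))
    (H644.ef 2 (4 / 5) ε rp (1 / 10)) := by
  have h := hr.pp
  obtain ⟨R₁, hR, hR1⟩ := h.exists_R
  refine ⟨R₁, ?_⟩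
  exact
    { sm := h.contDiff_Ph
      d2 := h.d2_Ph
      eq0 := fun s hs => h.Ph_eq hs
      eq1 := fun s hs => h.Ph1_eq hs
      eq2 := fun s hs => h.Ph2_eq hs
      pos := fun s hs => h.S_pos hs
      pos1 := fun s hs => h.Ph1_pos hs
      smL := h.contDiffOn_Lf
      sme := h.contDiffOn_ef
      dS := fun r hr => h.hasDerivAt_S hr
      dL := fun r hr => h.hasDerivAt_Lf hr
      one := fun r hr => h.Ph1_L hr
      two := fun r hr => h.Ph2_L hr
      L_near := fun r hr h1 => h.Lf_eq hr h1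
      e_near := fun r hr h1 => h.ef_eq hr h1
      e_nonneg := fun r hr => h.ef_nonneg hr
      e_le := fun r hr => h.ef_le hr
      Li_pos := h.L0
      Li_le := fun r => h.Li_le r
      L_le := fun r hr => h.Lf_le hr
      anti := h.antitone_Lf
      r_lt := hR
      L_far := fun r hr => (hR1 r hr).1
      e_far := fun r hr => (hR1 r hr).2
      S_far := fun r hr => h.S_far (h.r0.trans hR) (fun r hr => (hR1 r hr).1) hr
      bd := fun k c₀ hc => h.exists_bound k hc }

/-- The conditions of the flat theorem for the profile. -/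
theorem fs_prof {n : ℕ} (hn : 3 ≤ n) {ε a f : ℝ} (hr : H509.Rad.Ok ε rp) (ha : 0 < a)
    (hf : f = 9 / 10 ∨ f = 2) : FS n (prS ε) a (prP ε (1 / 10) ^ 2) f := by
  obtain ⟨R₁, hP⟩ := isProf hr
  have hn3 : (3 : ℝ) ≤ n := by exact_mod_cast hn
  have hp : 1 ≤ prP ε (1 / 10) := hr.one_le (by norm_num)
  have e1 : deriv (prS ε) = H606.EP.prS₁ ε := funext fun s => (H606.EP.prS_d1 hr.e0 s).deriv
  have e2 : deriv (deriv (prS ε)) = H606.EP.prS₂ ε := by
    rw [e1]; exact funext fun s => (H606.EP.prS_d2 hr.e0 s).deriv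
  refine ⟨H606.EP.prS_sm hr.e0, fun x hx => ?_, ha, fun τ hτ =>
    hP.pos τ (ha.trans_le hτ.1), fun τ hτ => ?_⟩
  · rcases hx.eq_or_lt with h | h
    · rw [← h, H606.EP.prS_eq hr.e0 zero_le_one, zero_mul]
    · exact (hP.pos x h).le
  · have τ0 : 0 < τ := ha.trans_le hτ.1
    set r := √τ with hrd
    have r0 : 0 < r := Real.sqrt_pos.2 τ0
    have r2 : r ^ 2 = τ := Real.sq_sqrt τ0.le
    have hrp : r ≤ prP ε (1 / 10) := by
      rw [hrd, Real.sqrt_le_left (by linarith)]
      exact hτ.2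
    have hcase : r ≤ rp ∨ H644.Lf 2 (4 / 5) ε rp (1 / 10) r / r / 10 ≤
        H644.Lf 2 (4 / 5) ε rp (1 / 10) r - 1 := by
      rcases le_or_gt r rp with h1 | h1
      · exact Or.inl h1
      · right
        have hr1 : 1 ≤ r := by
          have : (1 : ℝ) ≤ rp := by norm_num [rp]
          linarith
        have hg : 1 / 10 ≤ H509.Rad.gr ε rp r := by
          rcases hrp.eq_or_lt with h2 | h2
          · rw [h2]
            exact (hr.gr_eq (by norm_num) (by norm_num)).ge
          · exact (hr.before hr1 h2).le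
        have hL : 0 < H509.Rad.Lr ε rp r := hr.Lpos r
        have e : H509.Rad.gr ε rp r * (H509.Rad.Lr ε rp r / r) = H509.Rad.Lr ε rp r - 1 := by
          unfold H509.Rad.gr
          field_simp
        have h3 : 1 / 10 * (H509.Rad.Lr ε rp r / r) ≤
            H509.Rad.gr ε rp r * (H509.Rad.Lr ε rp r / r) :=
          mul_le_mul_of_nonneg_right hg (by positivity)
        rw [e] at h3
        change H509.Rad.Lr ε rp r / r / 10 ≤ H509.Rad.Lr ε rp r - 1
        linarith
    have er : √(r ^ 2) = r := Real.sqrt_sq r0.le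
    rw [e2, e1, ← r2]
    rcases hf with rfl | rfl
    · have := H312.T.sc_prof hP hr.e1 (by norm_num [rp]) hn3 r0 hcase
      rwa [er] at this
    · have := H312.T.sc_prof2 hP hr.e1 (by norm_num [rp]) hn3 r0 hcase
      rwa [er] at this

end Vale.Agent.P088.R2.H820.Fl
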