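import Vale.Agent.P088.R2.H820.T.Fz
import Vale.Agent.P088.R2.H820.T.Fs

/-!
# The flat zones on the package
-/

open MeasureTheory Set Filter
open scoped ContDiff Topology

set_option linter.unusedSectionVars false
set_option linter.dupNamespace false

noncomputable section

namespace Vale.Agent.P088.R2.H820.Fl

open Vale.Agent.P088.LR Vale.Agent.P088.HY Vale.Agent.P088.R2.H31.EP
open Vale.Agent.P088.R2.H354.T (bq b1 b2 B1 B2 Wn IsWin)
open Vale.Agent.P088.R2.H867.EP (fac fac_pair)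
open Vale.Agent.P088.R2.H404.INF (InfC near_alive lvG tinf tinf_eq l₀_nonneg)
open Vale.Agent.P088.R2.H710.GP (GC ND nd_of gl_lit evG)
open Vale.Agent.P088.R2.H820.W

variable {n : ℕ}

/-! ## The factors of the cut-off -/

/-- The factor of `|x - y|²`. -/
def F1 (q : Cst) (τ : ℝ) : ℝ :=
  fac true ((τ - q.c₀ ^ 2) / (3 * q.c₀ ^ 2)) * fac false ((τ - q.p₁ ^ 2) / (q.p₂ ^ 2 - q.p₁ ^ 2))

/-- The factor of the variable of the tube. -/
def F2 : ℝ → ℝ := fac false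

/-- The factor of the window. -/
def F3 (b u : ℝ) : ℝ := Real.smoothTransition (8 * u - 1) * Real.smoothTransition (8 * (b - u) - 1)

theorem st_abs (x : ℝ) : |Real.smoothTransition x| ≤ 1 :=
  abs_le.2 ⟨by linarith [Real.smoothTransition.nonneg x], Real.smoothTransition.le_one x⟩

theorem fac_abs (b : Bool) (x : ℝ) : |fac b x| ≤ 1 :=
  abs_le.2 ⟨by linarith [(fac_pair.stp b).nn x], (fac_pair.stp b).le x⟩

theorem F1_sm (q : Cst) : ContDiff ℝ ∞ (F1 q) := by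
  unfold F1
  refine ContDiff.mul ((fac_pair.stp true).sm.comp ?_) ((fac_pair.stp false).sm.comp ?_)
  · exact (contDiff_id.sub contDiff_const).div_const _
  · exact (contDiff_id.sub contDiff_const).div_const _

theorem F3_sm (b : ℝ) : ContDiff ℝ ∞ (F3 b) := by
  unfold F3
  refine ContDiff.mul (Real.smoothTransition.contDiff.comp ?_)
    (Real.smoothTransition.contDiff.comp ?_)
  · exact (contDiff_const.mul contDiff_id).sub contDiff_const
  · exact (contDiff_const.mul (contDiff_const.sub contDiff_id)).sub contDiff_const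

/-- The factors of the cut-off. -/
theorem ff {q : Cst} (hr : H509.Rad.Ok q.e₁ rp) (hc : 0 < q.c₀) (b : ℝ) :
    FF (81 / 100 * q.c₀ ^ 2) (bq q) 0 b (F1 q) F2 (F3 b) where
  s₁ := F1_sm q
  s₂ := (fac_pair.stp false).sm
  s₃ := F3_sm b
  b₁ x := by
    unfold F1
    rw [abs_mul]
    exact mul_le_one₀ (fac_abs _ _) (abs_nonneg _) (fac_abs _ _)
  b₂ x := fac_abs _ _
  b₃ x := by
    unfold F3
    rw [abs_mul]
    exact mul_le_one₀ (st_abs _) (abs_nonneg _) (st_abs _)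
  h₁ := by
    have h1 := Cst.p₁_ge hr
    have h2 := Cst.p₁_lt hr
    have h3 : q.p₂ < prP q.e₁ (1 / 10) := hr.pr_lt (by norm_num) (by norm_num) (by norm_num)
    refine ⟨q.c₀ ^ 2, q.p₂ ^ 2, by nlinarith [sq_pos_of_pos hc], ?_, fun x hx => ⟨?_, ?_⟩⟩
    · unfold bq
      exact pow_lt_pow_left₀ h3 (by linarith) two_ne_zero
    · by_contra hlt
      refine hx ?_
      unfold F1
      rw [fac_pair.t0 _ (div_nonpos_of_nonpos_of_nonneg (by linarith) (by positivity)), zero_mul]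
    · by_contra hlt
      refine hx ?_
      have h4 : 0 < q.p₂ ^ 2 - q.p₁ ^ 2 := by nlinarith
      unfold F1
      rw [fac_pair.f1 _ ((one_le_div h4).2 (by linarith)), mul_zero]
  h₂ x hx := fac_pair.f1 x hx
  h₃ := by
    refine ⟨1 / 8, b - 1 / 8, by norm_num, by linarith, fun x hx => ⟨?_, ?_⟩⟩
    · by_contra hlt
      refine hx ?_
      unfold F3
      rw [Real.smoothTransition.zero_of_nonpos (by linarith), zero_mul]
    · by_contra hlt
      refine hx ?_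
      unfold F3
      rw [Real.smoothTransition.zero_of_nonpos (x := 8 * (b - x) - 1) (by linarith), mul_zero]

/-! ## The constants -/

/-- The conditions on `t₀`, `ρ`, `c`. -/
def P3 (n : ℕ) (q : Cst) (x : ℝ × ℝ × ℝ) : Prop :=
  0 < x.1 ∧ 0 < x.2.1 ∧ 0 < x.2.2 ∧ ∀ t, 0 < t → t ≤ x.1 → ∀ B B' : ℕ → ℝ, ∃ C, 0 ≤ C ∧
    FZ n (prS q.e₁) (81 / 100 * q.c₀ ^ 2) (bq q) (9 / 10) 0 (b1 q) t x.2.1 x.2.2 C (F1 q) F2
      (F3 (b1 q)) B ∧
    FZ n (prS q.e₁) (81 / 100 * q.c₀ ^ 2) (bq q) 2 0 (b2 q) t x.2.1 x.2.2 C (F1 q) F2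
      (F3 (b2 q)) B'

theorem P3_ex (hn : 3 ≤ n) {q : Cst} (hr : H509.Rad.Ok q.e₁ rp) (hc : 0 < q.c₀) :
    ∃ x, P3 n q x := by
  have ha : 0 < 81 / 100 * q.c₀ ^ 2 := by positivity
  obtain ⟨t1, ρ1, k1, k2, H1⟩ := exists_FZ (fs_prof hn hr ha (Or.inl rfl))
  obtain ⟨t2, ρ2, k3, k4, H2⟩ := exists_FZ (fs_prof hn hr ha (Or.inr rfl))
  obtain ⟨c1, hc1, H1⟩ := H1 0 (b1 q)
  obtain ⟨c2, hc2, H2⟩ := H2 0 (b2 q)
  refine ⟨⟨min t1 t2, min ρ1 ρ2, min c1 c2⟩, lt_min k1 k3, lt_min k2 k4, lt_min hc1 hc2,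
    fun t t0 ht B B' => ?_⟩
  obtain ⟨C1, hC1, H1⟩ := H1 t t0 (ht.trans (min_le_left _ _)) _ _ _ (ff hr hc (b1 q)) B
  obtain ⟨C2, hC2, H2⟩ := H2 t t0 (ht.trans (min_le_right _ _)) _ _ _ (ff hr hc (b2 q)) B'
  exact ⟨max C1 C2, hC1.trans (le_max_left _ _),
    H1 _ _ _ (min_le_left _ _) (lt_min hc1 hc2).le (min_le_left _ _) (le_max_left _ _),
    H2 _ _ _ (min_le_right _ _) (lt_min hc1 hc2).le (min_le_right _ _) (le_max_right _ _)⟩

open Classical in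
/-- `t₀`, `ρ`, `c`. -/
def x3 (n : ℕ) (q : Cst) : ℝ × ℝ × ℝ :=
  if h : ∃ x, P3 n q x then h.choose else ⟨1, 1, 1⟩

theorem x3_spec {q : Cst} (h : ∃ x, P3 n q x) : P3 n q (x3 n q) := by
  unfold x3
  rw [dif_pos h]
  exact h.choose_spec

theorem x3_pos (q : Cst) : 0 < (x3 n q).1 ∧ 0 < (x3 n q).2.1 ∧ 0 < (x3 n q).2.2 := by
  by_cases h : ∃ x, P3 n q x
  · have := x3_spec h
    exact ⟨this.1, this.2.1, this.2.2.1⟩
  · unfold x3
    rw [dif_neg h]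
    norm_num

/-- The bound of the radius of the tubes. -/
def t₀ (n : ℕ) (q : Cst) : ℝ := (x3 n q.b_rT).1

/-- The bound of the curvature. -/
def ρT (n : ℕ) (q : Cst) : ℝ := (x3 n q.b_rT).2.1

/-- The constant of the margins. -/
def cT (n : ℕ) (q : Cst) : ℝ := (x3 n q.b_rT).2.2

/-- The condition on the constant of the costs. -/
def PC (n : ℕ) (q : Cst) (C : ℝ) : Prop := 0 ≤ C ∧
  FZ n (prS q.e₁) (81 / 100 * q.c₀ ^ 2) (bq q) (9 / 10) 0 (b1 q) q.rT (ρT n q) (cT n q) C (F1 q) F2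
      (F3 (b1 q)) (B1 q) ∧
  FZ n (prS q.e₁) (81 / 100 * q.c₀ ^ 2) (bq q) 2 0 (b2 q) q.rT (ρT n q) (cT n q) C (F1 q) F2
      (F3 (b2 q)) (B2 q)

open Classical in
/-- The constant of the costs (auxiliary). -/
def C0 (n : ℕ) (q : Cst) : ℝ := if h : ∃ C, PC n q C then h.choose else 0

/-- The constant of the costs. -/
def CT (n : ℕ) (q : Cst) : ℝ := C0 n q.b_ηc

theorem NB_cT (n : ℕ) : NB_rT (cT n) := fun _ => rfl

theorem NB_CT (n : ℕ) : NB_M₀ (CT n) := fun _ => rfl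

/-- The constant of the costs depends only on the constants before `ηc`. -/
theorem NB_CT' (n : ℕ) : NB_ηc (CT n) := fun _ => rfl

theorem NB_CT'' (n : ℕ) : NB_c' (CT n) := fun _ => rfl

theorem CT_spec (hn : 3 ≤ n) {q : Cst} (hr : H509.Rad.Ok q.e₁ rp) (hc : 0 < q.c₀)
    (h0 : 0 < q.rT) (h1 : q.rT ≤ t₀ n q) : PC n q (CT n q) := by
  have h2 : P3 n q (x3 n q.b_rT) := x3_spec (q := q.b_rT) (P3_ex (q := q.b_rT) hn hr hc)
  obtain ⟨C, hC, z1, z2⟩ := h2.2.2.2 q.rT h0 h1 (B1 q) (B2 q)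
  have h3 : ∃ C, PC n q.b_ηc C := ⟨C, hC, z1, z2⟩
  have h4 : PC n q.b_ηc (C0 n q.b_ηc) := by
    unfold C0
    rw [dif_pos h3]
    exact h3.choose_spec
  exact h4

/-! ## The data -/

/-- The conditions on the constants. -/
structure FC (n : ℕ) (q : Cst) : Prop where
  g : GC q
  c0 : 0 < q.c₀
  ν0 : 0 < q.ν₁
  nm0 : 0 < q.nm
  rT : q.rT ≤ t₀ n q
  σ : 5 * q.σ ≤ ρT n q
  R : 4 * bq q ≤ (q.κ₁ * q.R) ^ 2

theorem evFC (n : ℕ) : EvC (FC n) := by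
  have h1 : EvC fun q => q.rT ≤ t₀ n q :=
    EvC.at_rT (fun q t => t ≤ (x3 n q).1) fun q => sml_le (x3_pos q).1
  have h2 : EvC fun q => 5 * q.σ ≤ ρT n q :=
    EvC.at_σ (fun q t => 5 * t ≤ ρT n q) fun q => by
      have h : 0 < ρT n q := (x3_pos (n := n) q.b_rT).2.1
      exact (sml_le (a := ρT n q / 5) (by positivity)).mono fun t ht => by linarith
  have h3 : EvC fun q => 0 < q.κ₁ → 4 * bq q ≤ (q.κ₁ * q.R) ^ 2 :=
    EvC.at_R (fun q t => 0 < q.κ₁ → 4 * bq q ≤ (q.κ₁ * t) ^ 2) fun q => by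
      by_cases h : 0 < q.κ₁
      · refine ev_top (√(4 * bq q) / q.κ₁) fun t ht _ => ?_
        rw [div_le_iff₀ h] at ht
        have h4 := Real.sqrt_nonneg (4 * bq q)
        have h5 : √(4 * bq q) ^ 2 ≤ (q.κ₁ * t) ^ 2 :=
          pow_le_pow_left₀ h4 (by linarith) 2
        have h6 : 0 ≤ bq q := sq_nonneg _
        rwa [Real.sq_sqrt (by positivity)] at h5
      · exact Eventually.of_forall fun _ h1 => absurd h1 h
  refine (((evG.and EvC.pos).and (h1.and h2)).and h3).mono ?_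
  rintro q ⟨⟨⟨g, ⟨-, -, a1, -, -, a2, a3, -⟩, -⟩, b1, b2⟩, b3⟩
  exact ⟨g, a2, a3, by linarith, b1, b2, b3 g.inf.κ0⟩

variable {q : Cst} {d : Pk n} {z : VV n} {m β f : ℝ} {B : ℕ → ℝ} {T : VV n → ℝ}

/-- On the region the points are not deep. -/
theorem nd (hq : FC n q) (h : PkOk q d) (hm : 0 ≤ m) (hm1 : m + β ≤ d.uta q)
    (hz : z ∈ Of (81 / 100 * q.c₀ ^ 2) (bq q) 0 β m d.l T) :
    H710.GP.NO q d z ∧ ND q d z := by
  obtain ⟨h1, h2, -, h4, h5⟩ := hz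
  have hi := hq.g.inf
  have hR := hi.R0
  have hu : 0 ≤ d.l z.1 + d.l z.2 := by linarith
  have hN : H710.GP.NO q d z := by
    refine near_alive (lvG hi h) hi.κ0 hi.κ1 ?_
    unfold H404.INF.tinf
    have hk : 0 < (q.κ₁ * q.R) ^ 2 := by have := hi.κ0; positivity
    rw [Real.smoothTransition.zero_of_nonpos, Real.smoothTransition.zero_of_nonpos,
      Real.smoothTransition.zero_of_nonpos]
    · norm_num
    · have e : d.uta q = 2 * d.l₀ q + 45 / 10 * q.R := rfl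
      rw [e] at hm1
      have : 20 * (d.l z.1 + d.l z.2 - 2 * d.l₀ q) / q.R ≤ 90 := by
        rw [div_le_iff₀ hR]
        linarith
      linarith
    · have h6 : 0 ≤ q.σ / q.R * (d.l z.1 + d.l z.2) :=
        mul_nonneg (div_nonneg hi.σ0.le hR.le) hu
      have e : -(q.σ / q.R) * (d.l z.1 + d.l z.2) = -(q.σ / q.R * (d.l z.1 + d.l z.2)) := by ring
      rw [e]
      linarith
    · have : 4 * HY.sq (z.1 - z.2) / (q.κ₁ * q.R) ^ 2 ≤ 1 := by
        rw [div_le_one hk]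
        linarith [hq.R]
      linarith
  exact ⟨hN, nd_of hi h hN hu⟩

/-- The gradient of the level is affine. -/
theorem pd_aff (hq : FC n q) (h : PkOk q d) {x : V n} (h1 : -q.R ≤ d.l x - d.l₀ q)
    (h2 : H475.gg n q.σ (q.R⁻¹ • x) ≤ 12 / 5) :
    (∀ i, pd i d.l x = H475.wR n q.σ q.R 0 i + q.σ / q.R * x i) ∧
      |∑ i, pd i d.l x ^ 2 - 1| ≤ 5 * q.σ := by
  have hi := hq.g.inf
  have hR := hi.R0
  obtain ⟨e1, e2⟩ := gl_lit hi h h1
  constructor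
  · intro i
    have e3 := congrFun e1 i
    change pd i d.l x = _ at e3
    rw [e3]
    unfold H475.wR H475.wv
    simp
    field_simp
    ring
  · have e3 : ∑ i, pd i d.l x ^ 2 = HY.sq (H710.GP.gl d.l x) := rfl
    rw [e3, e2]
    rw [(lvG hi h).gl] at h2
    have h3 : -1 ≤ (d.l x - d.l₀ q) / q.R := by
      rw [le_div_iff₀ hR]
      linarith
    have hσ := hi.σ0
    rw [abs_le]
    constructor <;> nlinarith

/-- The data on the package. -/
theorem fd (hq : FC n q) (h : PkOk q d) (hm : 0 ≤ m) (hm1 : m + β ≤ d.uta q)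
    (hW : IsWin f d.Φ m β q.ν₁ q.nm B) (T : VV n → ℝ) :
    FD T (81 / 100 * q.c₀ ^ 2) (bq q) 0 β f (ρT n q) B m d.Φ d.l (H475.wR n q.σ q.R 0)
      (q.σ / q.R) := by
  have hi := hq.g.inf
  have hR := hi.R0
  have hσ := hi.σ0
  have hρ : 0 < ρT n q := (x3_pos (n := n) q.b_rT).2.1
  have hσρ := hq.σ
  refine ⟨hm, h.Φs, h.lev.sm, h.N_pos hq.g.M1, fun j x h1 h2 => ?_, fun x h1 h2 => ?_, ?_,
    fun z hz => ?_, fun z hz => ?_, fun z hz => ?_, fun z hz => ?_⟩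
  · exact hW.bd j x (by linarith) (by linarith)
  · rw [hW.K x (by linarith) (by linarith), sub_self, abs_zero]
    have := Real.exp_pos x
    positivity
  · rw [abs_of_nonneg (div_nonneg hσ.le hR.le), div_le_iff₀ hR]
    nlinarith [hi.R1]
  · obtain ⟨h1, h2⟩ := nd hq h hm hm1 hz
    exact (pd_aff hq h h2.l1 h1.g1).1
  · obtain ⟨h1, h2⟩ := nd hq h hm hm1 hz
    exact (pd_aff hq h h2.l2 h1.g2).1
  · obtain ⟨h1, h2⟩ := nd hq h hm hm1 hz
    exact (pd_aff hq h h2.l1 h1.g1).2.trans hσρ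
  · obtain ⟨h1, h2⟩ := nd hq h hm hm1 hz
    exact (pd_aff hq h h2.l2 h1.g2).2.trans hσρ

/-! ## The theorem -/

/-- The region of a tube in a window. -/
abbrev OT (q : Cst) (d : Pk n) (β m : ℝ) (T : VV n → ℝ) : Set (VV n) :=
  Of (81 / 100 * q.c₀ ^ 2) (bq q) 0 β m d.l T

/-- The cut-off of a tube in a window. -/
abbrev cT' (q : Cst) (d : Pk n) (β m : ℝ) (T : VV n → ℝ) : VV n → ℝ :=
  chf (F1 q) F2 (F3 β) d.l m T

/-- The flat zones in a window. -/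
structure FLT (q : Cst) (d : Pk n) (β m c C : ℝ) : Prop where
  x : ∀ et : VV n → ℝ, Continuous et → (∀ z ∈ OT q d β m (d.tx q q.rT), 1 ≤ |et z|) →
    ZX (d.W0 q) (cT' q d β m (d.tx q q.rT)) et c C (Real.exp m)
  y : ∀ et : VV n → ℝ, Continuous et → (∀ z ∈ OT q d β m (d.ty q q.rT), 1 ≤ |et z|) →
    ZY (d.W0 q) (cT' q d β m (d.ty q q.rT)) et c C (Real.exp m)

/-- The flat zones for one package. -/
theorem flt (hn : 3 ≤ n) (hq : FC n q) (h : PkOk q d) {m₁ m₂ : ℝ} (hw : Wn q d m₁ m₂) :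
    0 < cT n q ∧ 0 ≤ CT n q ∧ FLT q d (b1 q) m₁ (cT n q) (CT n q) ∧
      FLT q d (b2 q) m₂ (cT n q) (CT n q) := by
  have hi := hq.g.inf
  have hC := CT_spec hn hq.g.rad hq.c0 hq.g.rT0 hq.rT
  obtain ⟨C0, z1, z2⟩ := hC
  have hl := l₀_nonneg hi h
  have hR := hi.R0
  have eh : d.uth q = 2 * d.l₀ q + 22 / 10 * q.R := rfl
  have ea : d.uta q = 2 * d.l₀ q + 45 / 10 * q.R := rfl
  have a1 := hw.a1
  have a2 := hw.b0
  have a3 := hw.b1
  have hm2 : 0 ≤ m₂ := by rw [eh] at a2; linarith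
  have hm1 : m₁ + b1 q ≤ d.uta q := by rw [eh] at a1; rw [ea]; linarith
  have hm3 : m₂ + b2 q ≤ d.uta q := by linarith
  refine ⟨(x3_pos (n := n) q.b_rT).2.2, C0, ⟨fun et he het => ?_, fun et he het => ?_⟩,
    ⟨fun et he het => ?_, fun et he het => ?_⟩⟩
  · exact z1.x m₁ d.Φ d.l _ _ (fd hq h hw.m0 hm1 hw.w1 _) et he het
  · exact z1.y m₁ d.Φ d.l _ _ (fd hq h hw.m0 hm1 hw.w1 _) et he het
  · exact z2.x m₂ d.Φ d.l _ _ (fd hq h hm2 hm3 hw.w2 _) et he het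
  · exact z2.y m₂ d.Φ d.l _ _ (fd hq h hm2 hm3 hw.w2 _) et he het

/-- **The flat zones on the package.** -/
theorem fl (hn : 3 ≤ n) : NB_rT (cT n) ∧ NB_M₀ (CT n) ∧ EvC fun q => 0 < cT n q ∧ 0 ≤ CT n q ∧
    ∀ d : Pk n, PkOk q d → ∀ m₁ m₂, Wn q d m₁ m₂ → FLT q d (b1 q) m₁ (cT n q) (CT n q) ∧
      FLT q d (b2 q) m₂ (cT n q) (CT n q) := by
  refine ⟨NB_cT n, NB_CT n, (evFC n).mono fun q hq => ⟨(x3_pos (n := n) q.b_rT).2.2, ?_, ?_⟩⟩
  · exact (CT_spec hn hq.g.rad hq.c0 hq.g.rT0 hq.rT).1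
  · intro d h m₁ m₂ hw
    exact (flt hn hq h hw).2.2

end Vale.Agent.P088.R2.H820.Fl
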