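import Vale.Agent.P088.R2.H354.T.Fin
import Vale.Agent.P088.R2.H558.G.Shape

/-!
# P088, stage 3, zone T: the row of the leaves `T1`, `T2`
-/

open Set Filter
open scoped ContDiff Topology

noncomputable section

namespace Vale.Agent.P088.R2.H820.T

open Vale.Agent.P088.LR Vale.Agent.P088.HY
open Vale.Agent.P088.R2.H31.EP
open Vale.Agent.P088.R2.H455.E
open Vale.Agent.P088.R2.H354.T (zoneT1 zoneT2 cTz CTz cTz_pos cTz_rT CTz_pos CTz_c')

/-- **The row of the leaves `T1`, `T2`.** -/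
theorem zRT {n : ℕ} (hn : 3 ≤ n) : H558.G.ZRT n := by
  refine ⟨cTz n, CTz n, ⟨cTz_pos n, cTz_rT n⟩, ⟨CTz_pos n, CTz_c' n⟩, fun L hc hC => ?_⟩
  have h1 := zoneT1 hn
  have h2 := zoneT2 hn
  rw [← hc, ← hC] at h1 h2
  exact ⟨⟨fun _ => 1, H558.G.SmE.one, fun _ _ _ => h1⟩,
    ⟨fun _ => 1, H558.G.SmE.one, fun _ _ _ => h2⟩⟩

end Vale.Agent.P088.R2.H820.T
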